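import Crest.Agent.X212.Hel40.Defs
import Crest.Agent.X212.Bb31.Stm

/-!
# X212/Hel40/Bas (helper40): calculus of `dl`, the angle along orbits, hitting times, removal lemma
-/

set_option autoImplicit false
set_option linter.unusedSectionVars false

open Set Filter Topology Function
open scoped ContDiff Manifold
open Crest.Agent.R208.F Crest.Agent.X212.Dr59 Crest.Agent.X212.Int54 Crest.Agent.X212.Cyl58
open Crest.Agent.X212.Sep15 (EE IR CM Box slab px Rg)
open Crest.Agent.X212.Flo26 (SmV fl)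
open Crest.Agent.X212.Line51 (CSm)

noncomputable section

namespace Crest.Agent.X212.Hel40

/-! ### `dl` -/

section dl

variable {E : Type*} [NormedAddCommGroup E] [NormedSpace ℝ E] [FiniteDimensional ℝ E]
  {H : Type*} [TopologicalSpace H] {I : ModelWithCorners ℝ E H}
  {M : Type*} [TopologicalSpace M] [ChartedSpace H M]
  {E' : Type*} [NormedAddCommGroup E'] [NormedSpace ℝ E'] [FiniteDimensional ℝ E']
  {H' : Type*} [TopologicalSpace H'] {J : ModelWithCorners ℝ E' H'}
  {N : Type*} [TopologicalSpace N] [ChartedSpace H' N] {g h : M → Circle} {x : M}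

theorem io_inj {a b : Module.Dual ℝ E} (e : io a = io b) : a = b := (ExteriorAlgebra.ι_inj ℝ _ _).1 e

theorem ang_eq (g : M → Circle) (x : M) : Line51.ang I g x = io (dl I g x) := rfl

theorem dl_apply (w : E) :
    dl I g x w = (star (g x : ℂ) * mf I 𝓘(ℝ, ℂ) (fun y => (g y : ℂ)) x w).im := by
  rw [dl, Line51.tl_eq_sum]
  simp [Line51.sc, Line51.dc]

theorem dl_congr (e : g =ᶠ[𝓝 x] h) : dl I g x = dl I h x := io_inj (Line51.ang_congr e)

theorem dl_const (c : Circle) : dl I (fun _ : M => c) x = 0 :=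
  io_inj ((congrFun (Line51.ang_const c) x).trans (map_zero _).symm)

theorem dl_of_const {c : Circle} (e : ∀ᶠ y in 𝓝 x, g y = c) : dl I g x = 0 :=
  (dl_congr (h := fun _ => c) e).trans (dl_const c)

theorem dl_mul (hg : CSm I g x) (hh : CSm I h x) : dl I (g * h) x = dl I g x + dl I h x :=
  io_inj ((Line51.ang_mul hg hh).trans (map_add _ _ _).symm)

theorem dl_inv (hg : CSm I g x) : dl I g⁻¹ x = -dl I g x :=
  io_inj ((Line51.ang_inv hg).trans (map_neg _ _).symm)

theorem dl_pow (hg : CSm I g x) (k : ℕ) : dl I (g ^ k) x = (k : ℝ) • dl I g x :=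
  io_inj ((Line51.ang_pow hg k).trans (map_smul _ _ _).symm)

theorem dl_exp {f : M → ℝ} (hf : ContMDiffAt I 𝓘(ℝ, ℝ) ∞ f x) (w : E) :
    dl I (fun y => Circle.exp (f y)) x w = mf I 𝓘(ℝ, ℝ) f x w :=
  LinearMap.congr_fun (io_inj (Line51.ang_exp hf)) w

theorem dl_comp {φ : N → M} {y : N} (hg : CSm I g (φ y)) (hφ : MDifferentiableAt J I φ y) (w : E') :
    dl J (g ∘ φ) y w = dl I g (φ y) (mf J I φ y w) := by
  have h := Line51.pm_ang hg hφ
  rw [pm, ang_eq, ang_eq, pb_io] at h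
  exact (LinearMap.congr_fun (io_inj h) w).symm

/-- a continuous logarithm of a smooth circle map is smooth -/
theorem contMDiffAt_log {l : M → ℝ} (hl : ContinuousAt l x)
    (h : ContMDiffAt I (𝓡 1) ∞ (fun y => Circle.exp (l y)) x) : ContMDiffAt I 𝓘(ℝ, ℝ) ∞ l x :=
  contMDiffAt_of_comp_left (Glue52.ld_circleExp (l x)) hl h

theorem csm_exp {l : M → ℝ} (hl : ContMDiffAt I 𝓘(ℝ, ℝ) ∞ l x) :
    CSm I (fun y => Circle.exp (l y)) x := (contMDiff_circleExp _).comp x hl

end dl

/-! ### `cay` -/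

theorem contDiff_cayA : ContDiff ℝ ∞ fun s : ℝ => Real.pi + 2 * Real.arctan s :=
  contDiff_const.add (contDiff_const.mul Real.contDiff_arctan)

theorem contMDiff_cay : ContMDiff 𝓘(ℝ, ℝ) (𝓡 1) ∞ cay :=
  contMDiff_circleExp.comp contDiff_cayA.contMDiff

theorem cay_re (s : ℝ) : (cay s : ℂ).re = (s ^ 2 - 1) / (s ^ 2 + 1) := by
  have h : 0 < 1 + s ^ 2 := by positivity
  rw [cay, Circle.coe_exp, Complex.exp_ofReal_mul_I_re, add_comm, Real.cos_add_pi, Real.cos_two_mul,
    Real.cos_sq_arctan]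
  field_simp
  ring

theorem cay_re_neg {s : ℝ} : (cay s : ℂ).re < 0 ↔ s ∈ Ioo (-1 : ℝ) 1 := by
  have h : 0 < s ^ 2 + 1 := by positivity
  rw [cay_re, div_neg_iff]
  constructor
  · rintro (h1 | h1)
    · exact absurd h1.2 h.not_gt
    · constructor <;> nlinarith [h1.1]
  · exact fun h1 => .inr ⟨by nlinarith [h1.1, h1.2], h⟩

theorem cay_ne_one (s : ℝ) : cay s ≠ 1 := fun e => by
  have h := cay_re s
  have h0 : 0 < s ^ 2 + 1 := by positivity
  rw [e, eq_div_iff h0.ne'] at h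
  simp at h
  linarith

theorem cay_eq_neg {s : ℝ} : (cay s : ℂ) = -1 ↔ s = 0 := by
  constructor
  · intro e
    have h := cay_re s
    have h0 : 0 < s ^ 2 + 1 := by positivity
    rw [e, eq_div_iff h0.ne'] at h
    simp at h
    nlinarith
  · rintro rfl
    simp [cay]

/-! ### the angle along the orbits -/

variable {Y : CM 3} {v : Vf Y} {Φ : Y → Circle}

theorem cpl (hv : SmV (𝓡 3) v) : Flo26.Cpl v := Flo26.complete_of_compactSpace hv

theorem fl_cont (hv : SmV (𝓡 3) v) : Continuous fun p : ℝ × Y => fl v p.1 p.2 :=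
  ((cpl hv).contMDiff hv).continuous

theorem fl_cont' (hv : SmV (𝓡 3) v) {X : Type*} [TopologicalSpace X] {t : X → ℝ} {y : X → Y}
    (ht : Continuous t) (hy : Continuous y) : Continuous fun x => fl v (t x) (y x) :=
  (fl_cont hv).comp (ht.prodMk hy)

theorem fl_add (hv : SmV (𝓡 3) v) (s t : ℝ) (y : Y) : fl v (s + t) y = fl v s (fl v t y) :=
  (cpl hv).add hv s t y

theorem contMDiffAt_dr (hv : SmV (𝓡 3) v) {f : Y → ℝ} {y : Y}
    (hf : ContMDiffAt (𝓡 3) 𝓘(ℝ, ℝ) ∞ f y) : ContMDiffAt (𝓡 3) 𝓘(ℝ, ℝ) ∞ (dr f v) y :=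
  Sob92.dv_smoothAt (hv y) hf

theorem contMDiffAt_rt (hv : SmV (𝓡 3) v) {y : Y} (h : CSm (𝓡 3) Φ y) :
    ContMDiffAt (𝓡 3) 𝓘(ℝ, ℝ) ∞ (rt Φ v) y := by
  have h1 : ContMDiffAt (𝓡 3) 𝓘(ℝ, ℂ) ∞ (fun z => (Φ z : ℂ)) y := (Line51.contMDiff_coe _).comp y h
  have h2 := Sob92.dv_smoothAt (hv y) h1
  have h3 : ContDiff ℝ ∞ fun p : ℂ × ℂ => (star p.1 * p.2).im :=
    Complex.imCLM.contDiff.comp ((Complex.conjCLE.contDiff.comp contDiff_fst).mul contDiff_snd)
  have h4 := (h3.contMDiff _).comp y (h1.prodMk_space h2)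
  refine h4.congr_of_eventuallyEq (Eventually.of_forall fun z => ?_)
  exact dl_apply _

theorem continuous_rt (hv : SmV (𝓡 3) v) (h : SC Φ) : Continuous (rt Φ v) :=
  continuous_iff_continuousAt.2 fun y => (contMDiffAt_rt hv (h y)).continuousAt

theorem rt_congr {Ψ : Y → Circle} {y : Y} (e : Φ =ᶠ[𝓝 y] Ψ) : rt Φ v y = rt Ψ v y := by
  rw [rt, rt, dl_congr e]

theorem rt_mul_pow {ψ : Y → Circle} {y : Y} (hψ : CSm (𝓡 3) ψ y) (h : CSm (𝓡 3) Φ y) (k : ℕ) :
    rt (ψ * Φ ^ k) v y = rt ψ v y + k * rt Φ v y := by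
  rw [rt, dl_mul hψ (h.pow k), dl_pow h]
  rfl

theorem hasDerivAt_dr (hv : SmV (𝓡 3) v) {f : Y → ℝ} {y : Y} {t : ℝ}
    (hf : MDifferentiableAt (𝓡 3) 𝓘(ℝ, ℝ) f (fl v t y)) :
    HasDerivAt (fun s => f (fl v s y)) (dr f v (fl v t y)) t :=
  Flo26.hasDerivAt_comp_fl hv (cpl hv _) hf

/-- a function with non-negative derivative along an orbit segment increases -/
theorem le_of_dr (hv : SmV (𝓡 3) v) {f : Y → ℝ} {y : Y} {a b : ℝ} (hab : a ≤ b)
    (hf : ∀ t ∈ Icc a b, MDifferentiableAt (𝓡 3) 𝓘(ℝ, ℝ) f (fl v t y) ∧ 0 ≤ dr f v (fl v t y)) :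
    f (fl v a y) ≤ f (fl v b y) := by
  have h := monotoneOn_of_deriv_nonneg (convex_Icc a b) (f := fun s => f (fl v s y))
    (fun t ht => (hasDerivAt_dr hv (hf t ht).1).continuousAt.continuousWithinAt)
    (fun t ht => (hasDerivAt_dr hv
      (hf t (interior_subset ht)).1).differentiableAt.differentiableWithinAt)
    (fun t ht => by
      rw [(hasDerivAt_dr hv (hf t (interior_subset ht)).1).deriv]
      exact (hf t (interior_subset ht)).2)
  exact h (left_mem_Icc.2 hab) (right_mem_Icc.2 hab) hab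

/-- the angle gained along the orbit of `y` in time `t` -/
def ag (Φ : Y → Circle) (v : Vf Y) (y : Y) (t : ℝ) : ℝ := ∫ s in (0 : ℝ)..t, rt Φ v (fl v s y)

theorem ag_zero (y : Y) : ag Φ v y 0 = 0 := intervalIntegral.integral_same

theorem continuous_ag (hv : SmV (𝓡 3) v) (h : SC Φ) : Continuous fun p : Y × ℝ => ag Φ v p.1 p.2 :=
  intervalIntegral.continuous_parametric_primitive_of_continuous (μ := MeasureTheory.volume)
    (f := fun (y : Y) (s : ℝ) => rt Φ v (fl v s y))
    ((continuous_rt hv h).comp (fl_cont' hv continuous_snd continuous_fst))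

theorem hasDerivAt_ag (hv : SmV (𝓡 3) v) (h : SC Φ) (y : Y) (t : ℝ) :
    HasDerivAt (ag Φ v y) (rt Φ v (fl v t y)) t :=
  (Continuous.integral_hasStrictDerivAt (f := fun s => rt Φ v (fl v s y))
    ((continuous_rt hv h).comp (fl_cont' hv continuous_id continuous_const)) 0 t).hasDerivAt

theorem ag_add (hv : SmV (𝓡 3) v) (h : SC Φ) (y : Y) (s t : ℝ) :
    ag Φ v y (s + t) = ag Φ v y t + ag Φ v (fl v t y) s := by
  have hc : Continuous fun s => rt Φ v (fl v s y) :=
    (continuous_rt hv h).comp (fl_cont' hv continuous_id continuous_const)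
  rw [ag, ag, ag, ← intervalIntegral.integral_add_adjacent_intervals (b := t)
    (hc.intervalIntegrable _ _) (hc.intervalIntegrable _ _)]
  congr 1
  simp_rw [← fl_add hv]
  rw [intervalIntegral.integral_comp_add_right (fun s => rt Φ v (fl v s y)), zero_add]

theorem alg_fl {z D : ℂ} {ρ : ℝ} (hz : z * star z = 1)
    (h4 : Complex.re 0 = (star D * z + star z * D).re) (hr : ρ = (star z * D).im) (e : ℂ) :
    D * e + z * (e * -(ρ * Complex.I)) = 0 := by
  have h5 : star z * D = ρ * Complex.I := by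
    refine Complex.ext ?_ (by simp [hr])
    simp at h4 ⊢
    linarith
  have h6 : D = z * (ρ * Complex.I) := by rw [← h5, ← mul_assoc, hz, one_mul]
  rw [h6]
  ring

/-- the circle map along an orbit -/
theorem phi_fl (hv : SmV (𝓡 3) v) (h : SC Φ) (y : Y) (t : ℝ) :
    Φ (fl v t y) = Φ y * Circle.exp (ag Φ v y t) := by
  have hd : ∀ s, HasDerivAt (fun s => (Φ (fl v s y) : ℂ) * Complex.exp (-(ag Φ v y s * Complex.I)))
      0 s := fun s => by
    have h1 : HasDerivAt (fun s => (Φ (fl v s y) : ℂ))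
        (mf (𝓡 3) 𝓘(ℝ, ℂ) (fun z => (Φ z : ℂ)) (fl v s y) (v (fl v s y))) s :=
      Flo26.hasDerivAt_comp_fl hv (cpl hv _) (f := fun z => (Φ z : ℂ))
        (((Line51.contMDiff_coe.comp h) _).mdifferentiableAt (by simp))
    have h2 := (((hasDerivAt_ag hv h y s).ofReal_comp.mul_const Complex.I).neg).cexp
    have h3 : HasDerivAt (fun s => star (Φ (fl v s y) : ℂ) * (Φ (fl v s y) : ℂ)) 0 s := by
      simp only [Complex.star_def, ← Complex.normSq_eq_conj_mul_self, Circle.normSq_coe]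
      exact hasDerivAt_const _ _
    have h4 := congrArg Complex.re (h3.unique (h1.star.mul h1))
    refine (h1.mul h2).congr_deriv ?_
    have hr : rt Φ v (fl v s y) = _ := dl_apply (I := 𝓡 3) (g := Φ) (v (fl v s y))
    have hz : (Φ (fl v s y) : ℂ) * star (Φ (fl v s y) : ℂ) = 1 := by
      rw [Complex.star_def, Complex.mul_conj, Circle.normSq_coe, Complex.ofReal_one]
    exact alg_fl hz h4 hr _
  have h0 := is_const_of_deriv_eq_zero (fun s => (hd s).differentiableAt) (fun s => (hd s).deriv) t 0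
  simp only [ag_zero, Flo26.fl_zero hv, Complex.ofReal_zero, zero_mul, neg_zero, Complex.exp_zero,
    mul_one] at h0
  ext
  rw [Circle.coe_mul, Circle.coe_exp, ← h0, mul_assoc, ← Complex.exp_add, neg_add_cancel,
    Complex.exp_zero, mul_one]

theorem ag_mono (hv : SmV (𝓡 3) v) (h : SC Φ) (h0 : ∀ y, 0 ≤ rt Φ v y) (y : Y) :
    Monotone (ag Φ v y) :=
  monotone_of_deriv_nonneg (fun t => (hasDerivAt_ag hv h y t).differentiableAt) fun t => by
    rw [(hasDerivAt_ag hv h y t).deriv]; exact h0 _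

/-- strict increase through a point of positive rate -/
theorem ag_strict (hv : SmV (𝓡 3) v) (h : SC Φ) (h0 : ∀ y, 0 ≤ rt Φ v y) {y : Y} {t : ℝ}
    (ht : 0 < rt Φ v (fl v t y)) :
    (∀ s < t, ag Φ v y s < ag Φ v y t) ∧ ∀ s > t, ag Φ v y t < ag Φ v y s := by
  have hm := ag_mono hv h h0 y
  have hd := hasDerivAt_ag hv h y t
  constructor
  · intro s hs
    refine lt_of_le_of_ne (hm hs.le) fun e => ?_
    have hc : ag Φ v y =ᶠ[𝓝[Iic t] t] fun _ => ag Φ v y t := by
      filter_upwards [Icc_mem_nhdsLE hs] with r hr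
      exact le_antisymm (hm hr.2) (e ▸ hm hr.1)
    have h1 := (hd.hasDerivWithinAt (s := Iic t)).congr_of_eventuallyEq hc.symm rfl
    exact ht.ne' ((uniqueDiffWithinAt_Iic t).eq_deriv _ h1 (hasDerivWithinAt_const _ _ _))
  · intro s hs
    refine lt_of_le_of_ne (hm hs.le) fun e => ?_
    have hc : ag Φ v y =ᶠ[𝓝[Ici t] t] fun _ => ag Φ v y t := by
      filter_upwards [Icc_mem_nhdsGE hs] with r hr
      exact le_antisymm (e ▸ hm hr.2) (hm hr.1)
    have h1 := (hd.hasDerivWithinAt (s := Ici t)).congr_of_eventuallyEq hc.symm rfl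
    exact ht.ne' ((uniqueDiffWithinAt_Ici t).eq_deriv _ h1 (hasDerivWithinAt_const _ _ _))

/-! ### hitting times -/

section hit

variable {X : Type*} [TopologicalSpace X] {F : X → ℝ → ℝ}

/-- `F x` changes sign exactly at `t` -/
def Crs (F : X → ℝ → ℝ) (x : X) (t : ℝ) : Prop := (∀ s < t, F x s < 0) ∧ ∀ s > t, 0 < F x s

theorem Crs.unique {x : X} {t t' : ℝ} (h : Crs F x t) (h' : Crs F x t') : t = t' := by
  by_contra hn
  rcases lt_or_gt_of_ne hn with h1 | h1
  · exact lt_asymm (h.2 _ (left_lt_add_div_two.2 h1)) (h'.1 _ (add_div_two_lt_right.2 h1))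
  · exact lt_asymm (h'.2 _ (left_lt_add_div_two.2 h1)) (h.1 _ (add_div_two_lt_right.2 h1))

theorem Crs.zero {x : X} {t : ℝ} (h : Crs F x t) (hc : ContinuousAt (F x) t) : F x t = 0 :=
  le_antisymm
    (le_of_tendsto (hc.tendsto.mono_left (nhdsWithin_le_nhds (s := Iio t)))
      (eventually_nhdsWithin_of_forall fun s hs => (h.1 s hs).le))
    (ge_of_tendsto (hc.tendsto.mono_left (nhdsWithin_le_nhds (s := Ioi t)))
      (eventually_nhdsWithin_of_forall fun s hs => (h.2 s hs).le))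

/-- the crossing time is continuous -/
theorem continuousOn_crs {S : Set X} {τ : X → ℝ} (hF : ∀ t, ContinuousOn (fun x => F x t) S)
    (h : ∀ x ∈ S, Crs F x (τ x)) : ContinuousOn τ S := fun x hx => by
  refine tendsto_order.2 ⟨fun a ha => ?_, fun a ha => ?_⟩
  · filter_upwards [(hF a x hx).eventually (gt_mem_nhds ((h x hx).1 a ha)), self_mem_nhdsWithin,
      (hF _ x hx).eventually (gt_mem_nhds ((h x hx).1 _ (add_div_two_lt_right.2 ha)))]
      with y _ hy h2
    exact (left_lt_add_div_two.2 ha).trans_le (not_lt.1 fun h3 => lt_asymm h2 ((h y hy).2 _ h3))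
  · filter_upwards [self_mem_nhdsWithin,
      (hF _ x hx).eventually (lt_mem_nhds ((h x hx).2 _ (left_lt_add_div_two.2 ha)))] with y hy h2
    exact (not_lt.1 fun h3 => lt_asymm h2 ((h y hy).1 _ h3)).trans_lt (add_div_two_lt_right.2 ha)

end hit

/-! ### removal of a closed set with a connected collar -/

theorem rem {X : Type*} [TopologicalSpace X] {V N H : Set X} (hV : IsPreconnected V)
    (hN : IsOpen N) (hH : IsClosed H) (hHN : H ⊆ N) (hNV : N ⊆ V) (hc : IsPreconnected (N \ H)) :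
    IsPreconnected (V \ H) := by
  have key : ∀ u w : Set X, IsOpen u → IsOpen w → V \ H ⊆ u ∪ w → (V \ H) ∩ (u ∩ w) = ∅ →
      N \ H ⊆ u → V \ H ⊆ u ∨ V \ H ⊆ w := fun u w hu hw hs hd hn => by
    have dj : ∀ y ∈ V, y ∉ H → y ∈ u → y ∈ w → False := fun y h1 h2 h3 h4 =>
      (hd.subset ⟨⟨h1, h2⟩, h3, h4⟩ : y ∈ (∅ : Set X))
    rcases isPreconnected_iff_subset_of_disjoint.1 hV (u ∪ N) (w \ H) (hu.union hN) (hw.sdiff hH)
      (fun y hy => (em (y ∈ H)).elim (fun h => .inl (.inr (hHN h))) fun h =>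
        (hs ⟨hy, h⟩).elim (fun h' => .inl (.inl h')) fun h' => .inr ⟨h', h⟩)
      (eq_empty_of_forall_notMem fun y hy => hy.2.1.elim (fun h => dj y hy.1 hy.2.2.2 h hy.2.2.1)
        fun h => dj y hy.1 hy.2.2.2 (hn ⟨h, hy.2.2.2⟩) hy.2.2.1) with h | h
    · exact .inl fun y hy => (h hy.1).elim id fun h' => hn ⟨h', hy.2⟩
    · exact .inr fun y hy => (h hy.1).1
  refine isPreconnected_iff_subset_of_disjoint.2 fun u w hu hw hs hd => ?_
  have h1 : N \ H ⊆ V \ H := sdiff_subset_sdiff_left hNV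
  rcases isPreconnected_iff_subset_of_disjoint.1 hc u w hu hw (h1.trans hs)
    (eq_empty_of_subset_empty (hd ▸ inter_subset_inter_left _ h1)) with h | h
  · exact key u w hu hw hs hd h
  · exact (key w u hw hu (union_comm u w ▸ hs) (inter_comm u w ▸ hd) h).symm

/-! ### chains -/

theorem Ch.snoc {t : Bool} {n : ℕ} {M N N' : Set Y} (h : Ch v t n M N) (S : Pre v N N')
    (hS : S.Cd t) : Ch v t (n + 1) M N' := by
  induction n generalizing M with
  | zero => exact ⟨N', h ▸ S, by cases h; exact hS, rfl⟩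
  | succ n ih =>
    obtain ⟨M', S', h1, h2⟩ := h
    exact ⟨M', S', h1, ih h2⟩

theorem Ch.sub {t : Bool} {n : ℕ} {M N : Set Y} (h : Ch v t n M N) : N ⊆ M := by
  induction n generalizing M with
  | zero => exact h.symm.subset
  | succ n ih =>
    obtain ⟨M', S', -, h2⟩ := h
    exact (ih h2).trans fun y hy => ((S'.meq' y).1 hy).1

/-- the field may be changed in the interior of the new plateau -/
def Pre.chg {M M' : Set Y} (S : Pre v M M') (v' : Vf Y) (e : ∀ y ∉ interior M', v' y = v y) :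
    Pre v' M M' :=
  have hM : ∀ y ∈ interior M', ∀ᶠ z in 𝓝 y, S.tp z = 0 ∧ S.tm z = 0 ∧ S.φ z = 1 := fun y hy => by
    filter_upwards [mem_interior_iff_mem_nhds.1 hy] with z hz
    have h := (S.meq' z).1 hz
    exact ⟨((S.meq z).1 h.1).2.1, ((S.meq z).1 h.1).2.2, h.2⟩
  have z0 : ∀ {f : Y → ℝ} {y : Y}, (∀ᶠ z in 𝓝 y, f z = 0) → dr f v' y = 0 := fun {f y} h => by
    rw [dr, mf_congr (g := fun _ => 0) h, mf_const]; rfl
  have sub : ∀ y ∉ M, y ∉ interior M' := fun y hy h => hy ((S.meq' y).1 (interior_subset h)).1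
  { S with
    pv := fun y hy => (em (y ∈ interior M')).elim
      (fun h => (z0 ((hM y h).mono fun _ h => h.1)).ge) fun h => by
        rw [dr, e y h]; exact S.pv y hy
    mv := fun y hy => (em (y ∈ interior M')).elim
      (fun h => (z0 ((hM y h).mono fun _ h => h.2.1)).ge) fun h => by
        rw [dr, e y h]; exact S.mv y hy
    ly := fun y hy h1 h2 h3 => by
      rw [dr, dr, e y (sub y h3)]; exact S.ly y hy h1 h2 h3
    φv := fun y hy => (em (y ∈ interior M')).elim
      (fun h => by rw [rt, dl_of_const ((hM y h).mono fun _ h => h.2.2)]; exact le_rfl) fun h => by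
        rw [rt, e y h]; exact S.φv y hy
    φs := fun y hy h1 => by
      rw [rt, e y fun h => h1 (interior_subset h)]; exact S.φs y hy h1 }

theorem Ch.chg {t : Bool} {n : ℕ} {M N : Set Y} (h : Ch v t n M N) {v' : Vf Y}
    (e : ∀ y ∉ interior N, v' y = v y) : Ch v' t n M N := by
  induction n generalizing M with
  | zero => exact h
  | succ n ih =>
    obtain ⟨M', S', h1, h2⟩ := h
    refine ⟨M', S'.chg v' fun y hy => e y fun h => hy (interior_mono h2.sub h), ?_, ih h2⟩
    cases t <;> exact h1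

end Crest.Agent.X212.Hel40
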